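import Vale.Agent.P335.MathlibUsed

namespace Vale.Agent.P335

open Finset

/-- The simple graph `G` on `Fin n` has degree `d v` at every vertex `v`. -/
def HasDegrees {n : ℕ} (d : Fin n → ℕ) (G : SimpleGraph (Fin n)) : Prop :=
  ∀ v, (G.neighborSet v).ncard = d v

/-- `d` is graphical: some simple graph has degrees `d`. -/
def Graphical {n : ℕ} (d : Fin n → ℕ) : Prop :=
  ∃ G : SimpleGraph (Fin n), HasDegrees d G

/-- The state space: all labelled simple graphs with degrees `d`. -/
abbrev Realization {n : ℕ} (d : Fin n → ℕ) : Type :=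
  {G : SimpleGraph (Fin n) // HasDegrees d G}

open Classical in
/-- The perfect matchings of the complete graph on the vertex set `S`, as sets of edges. -/
noncomputable def perfectMatchings {n : ℕ} (S : Finset (Fin n)) :
    Finset (Finset (Sym2 (Fin n))) :=
  S.sym2.powerset.filter
    (fun F => (∀ e ∈ F, ¬ e.IsDiag) ∧ ∀ v ∈ S, (F.filter (fun e => v ∈ e)).card = 1)

open Classical in
/-- If all edges of `F` are present and all edges of `F'` are absent, replace `F` by `F'`;
otherwise do nothing. -/
noncomputable def switchMove {n : ℕ} (G : SimpleGraph (Fin n))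
    (F F' : Finset (Sym2 (Fin n))) : SimpleGraph (Fin n) :=
  if (∀ e ∈ F, e ∈ G.edgeSet) ∧ (∀ e ∈ F', e ∉ G.edgeSet) then
    SimpleGraph.fromEdgeSet ((G.edgeSet \ (F : Set (Sym2 (Fin n)))) ∪ (F' : Set (Sym2 (Fin n))))
  else G

open Classical in
/-- The transition matrix of the switch chain: with probability `1/2` stay put; otherwise choose a
`4`-element set `S` uniformly, then one of the six ordered pairs of distinct perfect matchings of
the complete graph on `S` uniformly, and apply `switchMove`. -/
noncomputable def switchChain {n : ℕ} (d : Fin n → ℕ) :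
    Matrix (Realization d) (Realization d) ℝ :=
  fun G H => (1 / 2) * (if G = H then 1 else 0) +
    (1 / 2) * ∑ S ∈ (univ : Finset (Fin n)).powersetCard 4, (1 / (n.choose 4 : ℝ)) *
      ∑ p ∈ (perfectMatchings S).offDiag, (1 / 6) *
        (if switchMove G.1 p.1 p.2 = H.1 then 1 else 0)

open Classical in
/-- After `t` steps the chain is within total variation distance `1/4` of uniform, from every
starting graph. -/
def MixedBy {n : ℕ} (d : Fin n → ℕ) (t : ℕ) : Prop :=
  ∀ G : Realization d,
    (1 / 2) * ∑ H : Realization d,
      |(switchChain d ^ t) G H - 1 / (Fintype.card (Realization d) : ℝ)| ≤ 1 / 4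

/-- The mixing time. -/
noncomputable def tmix {n : ℕ} (d : Fin n → ℕ) : ℕ := sInf {t : ℕ | MixedBy d t}

end Vale.Agent.P335
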